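import Vale.Agent.P075.UFinite
import Vale.Agent.P075.TransferA
import Vale.Agent.P075.TransferB

/-! # Transfer of the uniform finite bound to the quadrant -/

namespace Vale.Agent.P075

open MeasureTheory Finset Filter Topology

/-- same as `transfer_step` with a constant -/
theorem transfer_stepU : ∃ C : ℝ, 0 < C ∧ ∀ (S : Finset ℤ) (ε : ℤ → ℝ), (∀ k, |ε k| ≤ 1) →
    ∀ M K : ℕ, (∀ k ∈ S, -(K : ℤ) < k ∧ k ≤ M) → ∀ f₀ f₁ f₂ : ℕ → ℕ → ℝ,
      |LamD S ε (stepF M K f₀) (stepF M K f₁) (stepF M K f₂)| ≤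
        C * (L3q (stepF M K f₀) * L3q (stepF M K f₁) * L3q (stepF M K f₂)) := by
  obtain ⟨C, hC, hfin⟩ := finiteUniform
  refine ⟨C, hC, ?_⟩
  intro S ε hε M K hS f₀ f₁ f₂
  set N := M + K with hN
  set F₀ : G N → G N → ℝ := fun x y => f₀ (und x) (und y) with hF0
  set F₁ : G N → G N → ℝ := fun x y => f₁ (und x) (und y) with hF1
  set F₂ : G N → G N → ℝ := fun x y => f₂ (und x) (und y) with hF2
  set s : ℝ := ((2 : ℝ) ^ K)⁻¹ * ((2 : ℝ) ^ K)⁻¹ with hs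
  have hs0 : 0 ≤ s := by positivity
  have hl0 : ∀ F : G N → G N → ℝ, 0 ≤ l3 F := fun F => Real.rpow_nonneg (by positivity) _
  have hL : L3q (stepF M K f₀) * L3q (stepF M K f₁) * L3q (stepF M K f₂) =
      s * (l3 F₀ * l3 F₁ * l3 F₂) := by
    rw [L3q_step hN f₀, L3q_step hN f₁, L3q_step hN f₂, ← hs]
    have : (s ^ ((1 : ℝ) / 3)) * (s ^ ((1 : ℝ) / 3)) * (s ^ ((1 : ℝ) / 3)) = s := by
      rw [← Real.rpow_add_of_nonneg hs0 (by norm_num) (by norm_num),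
        ← Real.rpow_add_of_nonneg hs0 (by norm_num) (by norm_num)]
      norm_num
    calc _ = ((s ^ ((1 : ℝ) / 3)) * (s ^ ((1 : ℝ) / 3)) * (s ^ ((1 : ℝ) / 3))) *
        (l3 F₀ * l3 F₁ * l3 F₂) := by ring
      _ = _ := by rw [this]
  have hterm : ∀ k ∈ S, ∑' n : Tri, LI k n.1.1 n.1.2.1 n.1.2.2 (stepF M K f₀) (stepF M K f₁)
      (stepF M K f₂) = s * Lam ((M - k).toNat) F₀ F₁ F₂ := by
    intro k hk
    obtain ⟨h1, h2⟩ := hS k hk
    exact tsum_LI_step (L := (k + K).toNat) (by omega) (by omega) (by omega) f₀ f₁ f₂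
  have hinj : Set.InjOn (fun k : ℤ => ((M : ℤ) - k).toNat) S := by
    intro k hk l hl h
    have h1 := (hS k hk).2
    have h2 := (hS l hl).2
    simp only at h
    omega
  have hsum : |LamD S ε (stepF M K f₀) (stepF M K f₁) (stepF M K f₂)| ≤
      s * ∑ j ∈ S.image (fun k : ℤ => ((M : ℤ) - k).toNat), |Lam j F₀ F₁ F₂| := by
    unfold LamD
    rw [Finset.sum_image hinj, Finset.mul_sum]
    refine (Finset.abs_sum_le_sum_abs _ _).trans (Finset.sum_le_sum fun k hk => ?_)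
    rw [hterm k hk, abs_mul, abs_mul, abs_of_nonneg hs0]
    have := hε k
    have h3 : 0 ≤ s * |Lam ((M - k).toNat) F₀ F₁ F₂| := by positivity
    nlinarith
  have hm := hfin N (S.image (fun k : ℤ => ((M : ℤ) - k).toNat)) (by
      intro i hi
      obtain ⟨k, hk, rfl⟩ := Finset.mem_image.1 hi
      have h1 := (hS k hk).1
      have h2 := (hS k hk).2
      omega) F₀ F₁ F₂
  rw [hL]
  calc |LamD S ε (stepF M K f₀) (stepF M K f₁) (stepF M K f₂)|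
      ≤ s * ∑ j ∈ S.image (fun k : ℤ => ((M : ℤ) - k).toNat), |Lam j F₀ F₁ F₂| := hsum
    _ ≤ s * (C * (l3 F₀ * l3 F₁ * l3 F₂)) := mul_le_mul_of_nonneg_left hm hs0
    _ = _ := by ring

/-- same as transfer_step / transfer_of_step with a constant instead of C (1+log card)^3 -/
theorem uniformQ2 : ∃ C : ℝ, 0 < C ∧ ∀ (S : Finset ℤ) (ε : ℤ → ℝ), (∀ k, |ε k| ≤ 1) →
      ∀ F₀ F₁ F₂ : ℝ × ℝ → ℝ, Measurable F₀ → Measurable F₁ → Measurable F₂ →
        (∃ M, ∀ p, |F₀ p| ≤ M) → (∃ M, ∀ p, |F₁ p| ≤ M) → (∃ M, ∀ p, |F₂ p| ≤ M) →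
        HasCompactSupport F₀ → HasCompactSupport F₁ → HasCompactSupport F₂ →
        |LamD S ε F₀ F₁ F₂| ≤ C * (L3q F₀ * L3q F₁ * L3q F₂) := by
  obtain ⟨C, hC, hstep⟩ := transfer_stepU
  refine ⟨C, hC, ?_⟩
  rintro S ε hε F₀ F₁ F₂ m₀ m₁ m₂ ⟨B₀, hB₀⟩ ⟨B₁, hB₁⟩ ⟨B₂, hB₂⟩ c₀ c₁ c₂
  set B : ℝ := max B₀ (max B₁ B₂) with hBdef
  have b₀ : ∀ p, |F₀ p| ≤ B := fun p => (hB₀ p).trans (le_max_left _ _)
  have b₁ : ∀ p, |F₁ p| ≤ B := fun p =>
    (hB₁ p).trans ((le_max_left _ _).trans (le_max_right _ _))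
  have b₂ : ∀ p, |F₂ p| ≤ B := fun p =>
    (hB₂ p).trans ((le_max_right _ _).trans (le_max_right _ _))
  have hB : 0 ≤ B := (abs_nonneg _).trans (b₀ (0, 0))
  obtain ⟨M₀, hM₀⟩ := exists_vanish c₀
  obtain ⟨M₁, hM₁⟩ := exists_vanish c₁
  obtain ⟨M₂, hM₂⟩ := exists_vanish c₂
  set MS : ℕ := S.sup Int.natAbs with hMS
  have hSle : ∀ k ∈ S, k.natAbs ≤ MS := fun k hk => Finset.le_sup (f := Int.natAbs) hk
  set M : ℕ := max (max M₀ M₁) (max M₂ MS) with hM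
  have v₀ : Vanish M F₀ := hM₀ M (by omega)
  have v₁ : Vanish M F₁ := hM₁ M (by omega)
  have v₂ : Vanish M F₂ := hM₂ M (by omega)
  -- the approximations
  have hδ : ∀ n : ℕ, (0 : ℝ) < 1 / ((n : ℝ) + 1) := fun n => by positivity
  choose K₀ hK₀ using fun n : ℕ => exists_step M m₀ b₀ (hδ n)
  choose K₁ hK₁ using fun n : ℕ => exists_step M m₁ b₁ (hδ n)
  choose K₂ hK₂ using fun n : ℕ => exists_step M m₂ b₂ (hδ n)
  set K : ℕ → ℕ := fun n => max (max (K₀ n) (K₁ n)) (max (K₂ n) (MS + 1)) with hK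
  choose f₀ hf₀ hd₀ using fun n : ℕ => hK₀ n (K n) (by simp only [hK]; omega)
  choose f₁ hf₁ hd₁ using fun n : ℕ => hK₁ n (K n) (by simp only [hK]; omega)
  choose f₂ hf₂ hd₂ using fun n : ℕ => hK₂ n (K n) (by simp only [hK]; omega)
  have hlim : Tendsto (fun n : ℕ => 1 / ((n : ℝ) + 1)) atTop (𝓝 0) :=
    tendsto_one_div_add_atTop_nhds_zero_nat
  have hdn : ∀ (F F' : ℝ × ℝ → ℝ), 0 ≤ dist1 M F F' := fun F F' =>
    integral_nonneg fun p => abs_nonneg _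
  have t₀ : Tendsto (fun n => dist1 M F₀ (stepF M (K n) (f₀ n))) atTop (𝓝 0) :=
    squeeze_zero (fun n => hdn _ _) hd₀ hlim
  have t₁ : Tendsto (fun n => dist1 M F₁ (stepF M (K n) (f₁ n))) atTop (𝓝 0) :=
    squeeze_zero (fun n => hdn _ _) hd₁ hlim
  have t₂ : Tendsto (fun n => dist1 M F₂ (stepF M (K n) (f₂ n))) atTop (𝓝 0) :=
    squeeze_zero (fun n => hdn _ _) hd₂ hlim
  have l₀ := tendsto_L3q m₀ (fun n => measurable_stepF M (K n) (f₀ n)) b₀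
    (fun n => abs_stepF_le hB (hf₀ n)) v₀ (fun n => vanish_stepF _ _ _) t₀
  have l₁ := tendsto_L3q m₁ (fun n => measurable_stepF M (K n) (f₁ n)) b₁
    (fun n => abs_stepF_le hB (hf₁ n)) v₁ (fun n => vanish_stepF _ _ _) t₁
  have l₂ := tendsto_L3q m₂ (fun n => measurable_stepF M (K n) (f₂ n)) b₂
    (fun n => abs_stepF_le hB (hf₂ n)) v₂ (fun n => vanish_stepF _ _ _) t₂
  obtain ⟨C', hC'⟩ := LamD_sub_le S ε hε M B
  have lL : Tendsto (fun n => LamD S ε (stepF M (K n) (f₀ n)) (stepF M (K n) (f₁ n))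
      (stepF M (K n) (f₂ n))) atTop (𝓝 (LamD S ε F₀ F₁ F₂)) := by
    rw [tendsto_iff_dist_tendsto_zero]
    apply squeeze_zero (fun n => dist_nonneg) (g := fun n =>
      C' * (dist1 M F₀ (stepF M (K n) (f₀ n)) + dist1 M F₁ (stepF M (K n) (f₁ n)) +
        dist1 M F₂ (stepF M (K n) (f₂ n))))
    · intro n
      rw [dist_comm, Real.dist_eq]
      exact hC' _ _ _ _ _ _ m₀ m₁ m₂ (measurable_stepF _ _ _) (measurable_stepF _ _ _)
        (measurable_stepF _ _ _) b₀ b₁ b₂ (abs_stepF_le hB (hf₀ n)) (abs_stepF_le hB (hf₁ n))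
        (abs_stepF_le hB (hf₂ n)) v₀ v₁ (vanish_stepF _ _ _) (vanish_stepF _ _ _)
    · simpa using ((t₀.add t₁).add t₂).const_mul C'
  refine le_of_tendsto_of_tendsto' lL.abs (((l₀.mul l₁).mul l₂).const_mul _) fun n => ?_
  apply hstep S ε hε M (K n)
  intro k hk
  have h1 := hSle k hk
  have h2 : MS ≤ M := by omega
  have h3 : MS + 1 ≤ K n := by simp only [hK]; omega
  constructor <;> omega

end Vale.Agent.P075
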